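import Vale.Agent.P338.OneTapeCore

namespace Vale.Agent.Results.P338.OneTape

open Vale.Agent.P338

theorem result : ∀ A : Machine 1, Multiplies A →
    ∃ c : ℝ, 0 < c ∧ ∃ N : ℕ, 2 ≤ N ∧ ∀ n : ℕ, N ≤ n →
      c * (n : ℝ) ^ 2 ≤ (worstTime A n : ℝ) ∧
      c * ((n : ℝ) * Real.log n) ≤ (worstTime A n : ℝ) := by
  intro A hA
  set a : ℕ := @Fintype.card A.Q A.finQ + 1 with ha
  have ha1 : 1 ≤ a := by omega
  refine ⟨1 / (16 * a), by positivity, 32, by norm_num, ?_⟩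
  intro n hn
  have hcount := one_tape_count A hA n (by omega)
  rw [← ha] at hcount
  set T := worstTime A n with hT
  set W := n - n / 2 + 1 with hW
  set l := T / W with hl
  have h1 : a ^ l ≤ 2 ^ (a * l) := by
    rw [pow_mul]
    exact Nat.pow_le_pow_left (Nat.lt_two_pow_self).le l
  have h2 : n + 2 ≤ 2 ^ (n / 4 + 3) := by
    have : n / 4 < 2 ^ (n / 4) := Nat.lt_two_pow_self
    rw [pow_add]
    omega
  have h3 : 2 ^ (n / 2) ≤ 2 ^ (n / 4 + 3 + a * l) := by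
    calc 2 ^ (n / 2) ≤ (n + 2) * a ^ l := hcount
      _ ≤ 2 ^ (n / 4 + 3) * 2 ^ (a * l) := Nat.mul_le_mul h2 h1
      _ = 2 ^ (n / 4 + 3 + a * l) := (pow_add _ _ _).symm
  have h4 : n / 2 ≤ n / 4 + 3 + a * l := (Nat.pow_le_pow_iff_right (by norm_num)).1 h3
  have h5 : n ≤ 8 * (a * l) := by omega
  have h6 : n ≤ 2 * W := by omega
  have h7 : W * l ≤ T := by rw [hl]; exact Nat.mul_div_le T W
  have h8 : n * n ≤ 16 * a * T := by
    calc n * n ≤ (2 * W) * (8 * (a * l)) := Nat.mul_le_mul h6 h5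
      _ = 16 * a * (W * l) := by ring
      _ ≤ 16 * a * T := Nat.mul_le_mul_left _ h7
  have h9 : ((n : ℝ)) ^ 2 ≤ 16 * a * T := by
    have : ((n * n : ℕ) : ℝ) ≤ ((16 * a * T : ℕ) : ℝ) := by exact_mod_cast h8
    push_cast at this
    nlinarith
  have haR : (0 : ℝ) < 16 * (a : ℝ) := by positivity
  have hmain : 1 / (16 * (a : ℝ)) * (n : ℝ) ^ 2 ≤ (T : ℝ) := by
    rw [div_mul_eq_mul_div, one_mul, div_le_iff₀ haR]
    linarith
  refine ⟨hmain, le_trans ?_ hmain⟩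
  apply mul_le_mul_of_nonneg_left _ (by positivity)
  have hn0 : (0 : ℝ) ≤ (n : ℝ) := Nat.cast_nonneg n
  have hlog : Real.log n ≤ n := by
    have hpos : (0 : ℝ) < (n : ℝ) := by
      have : 0 < n := by omega
      exact_mod_cast this
    have := Real.log_le_sub_one_of_pos hpos
    linarith
  nlinarith

end Vale.Agent.Results.P338.OneTape
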