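import Vale.Agent.Results.P338.A0_Transposition
import Vale.Agent.Results.P338.OneTape

namespace Vale.Agent.Results.P338.A00_Combined

open Vale.Agent.P338

theorem result :
    (∀ (kA : ℕ) (A : Machine kA), Multiplies A →
      ∃ (kB : ℕ) (B : Machine kB) (C : ℝ), Transposes B ∧ ∀ κ l : ℕ,
        (transTime B (2 ^ κ) : ℝ) ≤
          C * (l * ((worstTime A (144 * 4 ^ κ) : ℝ) + 144 * 4 ^ κ)
            + ((κ : ℝ) / 2 ^ l + 1) * (144 * 4 ^ κ))) ∧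
    ((∀ (kB : ℕ) (B : Machine kB), Transposes B →
        ∃ c : ℝ, 0 < c ∧ ∃ n₀ : ℕ, ∀ n : ℕ, n₀ ≤ n →
          c * (n : ℝ) ^ 2 * Real.log n ≤ transTime B n) →
      ∀ (kA : ℕ) (A : Machine kA), Multiplies A →
        ∃ c : ℝ, 0 < c ∧ ∃ N₀ : ℕ, 2 ≤ N₀ ∧
          (∀ κ : ℕ, N₀ ≤ 144 * 4 ^ κ →
            c * ((144 * 4 ^ κ : ℕ) : ℝ) * Real.log ((144 * 4 ^ κ : ℕ) : ℝ)
              ≤ worstTime A (144 * 4 ^ κ)) ∧
          (∀ N : ℕ, N₀ ≤ N → ∃ N' : ℕ, N' ≤ N ∧ N ≤ 4 * N' ∧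
            c * (N : ℝ) * Real.log N ≤ worstTime A N') ∧
          (Monotone (worstTime A) → ∀ N : ℕ, N₀ ≤ N →
            c * (N : ℝ) * Real.log N ≤ worstTime A N)) ∧
    (∀ A : Machine 1, Multiplies A →
      ∃ c : ℝ, 0 < c ∧ ∃ N : ℕ, 2 ≤ N ∧ ∀ n : ℕ, N ≤ n →
        c * (n : ℝ) ^ 2 ≤ (worstTime A n : ℝ) ∧
        c * ((n : ℝ) * Real.log n) ≤ (worstTime A n : ℝ)) :=
  ⟨A0_Transposition.result.1, A0_Transposition.result.2, OneTape.result⟩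

end Vale.Agent.Results.P338.A00_Combined
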