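import Vale.Agent.P338.TM.Assembly

namespace Vale.Agent.Results.P338.A0_Transposition

open Vale.Agent.P338

theorem result :
    (∀ (kA : ℕ) (A : Machine kA), Multiplies A →
      ∃ (kB : ℕ) (B : Machine kB) (C : ℝ), Transposes B ∧ ∀ κ l : ℕ,
        (transTime B (2 ^ κ) : ℝ) ≤
          C * (l * ((worstTime A (144 * 4 ^ κ) : ℝ) + 144 * 4 ^ κ)
            + ((κ : ℝ) / 2 ^ l + 1) * (144 * 4 ^ κ))) ∧
    ((∀ (kB : ℕ) (B : Machine kB), Transposes B →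
        ∃ c : ℝ, 0 < c ∧ ∃ n₀ : ℕ, ∀ n : ℕ, n₀ ≤ n →
          c * (n : ℝ) ^ 2 * Real.log n ≤ transTime B n) →
      ∀ (kA : ℕ) (A : Machine kA), Multiplies A →
        ∃ c : ℝ, 0 < c ∧ ∃ N₀ : ℕ, 2 ≤ N₀ ∧
          (∀ κ : ℕ, N₀ ≤ 144 * 4 ^ κ →
            c * ((144 * 4 ^ κ : ℕ) : ℝ) * Real.log ((144 * 4 ^ κ : ℕ) : ℝ)
              ≤ worstTime A (144 * 4 ^ κ)) ∧
          (∀ N : ℕ, N₀ ≤ N → ∃ N' : ℕ, N' ≤ N ∧ N ≤ 4 * N' ∧
            c * (N : ℝ) * Real.log N ≤ worstTime A N') ∧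
          (Monotone (worstTime A) → ∀ N : ℕ, N₀ ≤ N →
            c * (N : ℝ) * Real.log N ≤ worstTime A N)) := by
  refine ⟨?_, ?_⟩
  · intro kA A hA
    obtain ⟨B, C, hB, h⟩ := reduction_closed A hA
    exact ⟨_, B, C, hB, h⟩
  · intro H kA A hA
    obtain ⟨c, hc, N₀, h2, h3, h4⟩ := conditional_lower H A hA
    refine ⟨c, hc, N₀, h2, h3, h4, ?_⟩
    intro hm N hN
    obtain ⟨N', a1, _, a3⟩ := h4 N hN
    exact le_trans a3 (by exact_mod_cast hm a1)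

end Vale.Agent.Results.P338.A0_Transposition
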