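import Vale.Agent.Results.P338.A0_Transposition

namespace Vale.Agent.Results.P338.A1_FromTransposition

open Vale.Agent.P338

theorem result
    (H : ∀ (kB : ℕ) (B : Machine kB), Transposes B →
      ∃ c : ℝ, 0 < c ∧ ∃ n₀ : ℕ, ∀ n : ℕ, n₀ ≤ n →
        c * (n : ℝ) ^ 2 * Real.log n ≤ transTime B n)
    (kA : ℕ) (A : Machine kA) (hA : Multiplies A) :
    ∃ c : ℝ, 0 < c ∧ ∃ N₀ : ℕ, 2 ≤ N₀ ∧ ∀ N : ℕ, N₀ ≤ N →
      (∃ N' : ℕ, N' ≤ N ∧ N ≤ 4 * N' ∧ c * (N : ℝ) * Real.log N ≤ worstTime A N') ∧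
      (Monotone (worstTime A) → c * (N : ℝ) * Real.log N ≤ worstTime A N) := by
  obtain ⟨c, hc, N₀, h2, -, h4, h5⟩ :=
    Vale.Agent.Results.P338.A0_Transposition.result.2 H kA A hA
  exact ⟨c, hc, N₀, h2, fun N hN => ⟨h4 N hN, fun hm => h5 hm N hN⟩⟩

end Vale.Agent.Results.P338.A1_FromTransposition
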